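import Mathlib.Tactic
import Mathlib.Data.Matrix.ColumnRowPartitioned
import Mathlib.LinearAlgebra.Matrix.SchurComplement
import Mathlib.Analysis.Complex.Basic

/-! The bordered determinant in a frame adapted to the kernel of `b` (Mathlib only). -/

open Matrix

namespace Vale.Agent.P281.H185

section gen

variable {ι κ : Type*} [Fintype ι] [DecidableEq ι] [Fintype κ] [DecidableEq κ]

theorem det_hook (P : Matrix ι ι ℂ) :
    (fromBlocks P 1 1 (0 : Matrix ι ι ℂ)).det = (-1) ^ Fintype.card ι := by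
  have h : fromBlocks P 1 1 (0 : Matrix ι ι ℂ) * fromBlocks 1 0 (1 - P) 1 =
      fromBlocks 1 1 1 0 := by
    rw [fromBlocks_multiply]
    simp
  have h2 := congrArg det h
  rw [det_mul, det_fromBlocks_zero₁₂, det_fromBlocks_one₁₁] at h2
  simpa [det_neg] using h2

theorem det_mid (P : Matrix ι ι ℂ) (Q : Matrix ι κ ℂ) (Q' : Matrix κ ι ℂ) (R : Matrix κ κ ℂ) :
    (fromBlocks (fromBlocks P 1 1 (0 : Matrix ι ι ℂ)) (fromRows Q 0) (fromCols Q' 0) R).det =
      (-1) ^ Fintype.card ι * R.det := by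
  have h : fromBlocks (fromBlocks P 1 1 (0 : Matrix ι ι ℂ)) (fromRows Q 0) (fromCols Q' 0) R =
      fromBlocks 1 0 (fromCols 0 Q') 1 *
        fromBlocks (fromBlocks P 1 1 0) (fromRows Q 0) 0 R := by
    rw [fromBlocks_multiply]
    congr 1
    · simp
    · simp
    · rw [fromCols_mul_fromBlocks]
      simp
    · rw [fromCols_mul_fromRows]
      simp
  rw [h, det_mul, det_fromBlocks_zero₁₂, det_fromBlocks_zero₂₁, det_hook]
  simp

theorem det_bord (P : Matrix ι ι ℂ) (Q : Matrix ι κ ℂ) (Q' : Matrix κ ι ℂ) (R : Matrix κ κ ℂ)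
    (B : Matrix ι ι ℂ) :
    (fromBlocks (fromBlocks P Bᴴ B 0) (fromRows Q 0) (fromCols Q' 0) R).det =
      B.det * ((-1) ^ Fintype.card ι * R.det) * Bᴴ.det := by
  have h : fromBlocks (fromBlocks P Bᴴ B 0) (fromRows Q 0) (fromCols Q' 0) R =
      fromBlocks (fromBlocks 1 0 0 B) 0 0 1 *
        fromBlocks (fromBlocks P 1 1 0) (fromRows Q 0) (fromCols Q' 0) R *
        fromBlocks (fromBlocks 1 0 0 Bᴴ) 0 0 1 := by
    rw [fromBlocks_multiply, fromBlocks_multiply]
    congr 1
    · simp [fromBlocks_multiply]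
    · simp [fromBlocks_mul_fromRows]
    · simp [fromCols_mul_fromBlocks]
    · simp
  rw [h, det_mul, det_mul, det_mid, det_fromBlocks_zero₁₂, det_fromBlocks_zero₁₂,
    det_fromBlocks_zero₁₂, det_fromBlocks_zero₁₂]
  simp

end gen

/-- the index bijection `(p ⊕ p) ⊕ d ≃ (p + d) ⊕ p` -/
def idx (p d : ℕ) : (Fin p ⊕ Fin p) ⊕ Fin d ≃ Fin (p + d) ⊕ Fin p where
  toFun
    | .inl (.inl i) => .inl (finSumFinEquiv (.inl i))
    | .inl (.inr i) => .inr i
    | .inr j => .inl (finSumFinEquiv (.inr j))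
  invFun
    | .inl x => match finSumFinEquiv.symm x with
      | .inl i => .inl (.inl i)
      | .inr j => .inr j
    | .inr i => .inl (.inr i)
  left_inv := by
    rintro ((i | i) | j) <;> simp
  right_inv := by
    rintro (x | i)
    · obtain ⟨y, rfl⟩ := finSumFinEquiv.surjective x
      rcases y with i | j <;> simp
    · simp

theorem bord_frame {p d : ℕ} (b : Matrix (Fin p) (Fin (p + d)) ℂ)
    (A : Matrix (Fin (p + d)) (Fin (p + d)) ℂ) (l : Matrix (Fin (p + d)) (Fin p) ℂ)
    (k : Matrix (Fin (p + d)) (Fin d) ℂ) (hk : b * k = 0) :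
    ((-1) ^ p * (fromBlocks A.transpose b.conjTranspose b 0).det).re *
        ‖((fromCols l k).submatrix id finSumFinEquiv.symm).det‖ ^ 2 =
      ‖(b * l).det‖ ^ 2 * (k.transpose * A * k.map (starRingEnd ℂ)).det.re := by
  set T : Matrix (Fin (p + d)) (Fin (p + d)) ℂ :=
    (fromCols l k).submatrix id finSumFinEquiv.symm with hT
  set M := fromBlocks A.transpose b.conjTranspose b 0 with hM
  set S : Matrix (Fin (p + d) ⊕ Fin p) (Fin (p + d) ⊕ Fin p) ℂ := fromBlocks T 0 0 1 with hS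
  have hdS : S.det = T.det := by rw [hS, det_fromBlocks_zero₁₂]; simp
  have hN : Sᴴ * M * S = fromBlocks (Tᴴ * Aᵀ * T) (Tᴴ * bᴴ) (b * T) 0 := by
    rw [hS, hM, fromBlocks_conjTranspose, fromBlocks_multiply, fromBlocks_multiply]
    simp
  have hTl : ∀ x i, T x (finSumFinEquiv (.inl i)) = l x i := by
    intro x i
    simp [hT]
  have hTk : ∀ x j, T x (finSumFinEquiv (.inr j)) = k x j := by
    intro x j
    simp [hT]
  have hsub : (Sᴴ * M * S).submatrix (idx p d) (idx p d) =
      fromBlocks (fromBlocks (lᴴ * Aᵀ * l) (b * l)ᴴ (b * l) 0) (fromRows (lᴴ * Aᵀ * k) 0)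
        (fromCols (kᴴ * Aᵀ * l) 0) (kᴴ * Aᵀ * k) := by
    have hbk : ∀ i j, ∑ x, b i x * k x j = 0 := fun i j => by
      have := congrFun (congrFun hk i) j
      simpa [Matrix.mul_apply] using this
    rw [hN]
    ext u v
    rcases u with (i | i) | j <;> rcases v with (i' | i') | j' <;>
      simp only [idx, Equiv.coe_fn_mk, submatrix_apply, fromBlocks_apply₁₁, fromBlocks_apply₁₂,
        fromBlocks_apply₂₁, fromBlocks_apply₂₂, fromRows_apply_inl, fromRows_apply_inr,
        fromCols_apply_inl, fromCols_apply_inr, Matrix.mul_apply, conjTranspose_apply, hTl, hTk,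
        Matrix.zero_apply, star_sum, star_mul, hbk]
    · rw [← star_zero, ← hbk i' j]
      simp [star_sum, mul_comm]
  have hdet : star T.det * M.det * T.det =
      (b * l).det * ((-1) ^ p * (kᴴ * Aᵀ * k).det) * star (b * l).det := by
    have h1 := det_submatrix_equiv_self (idx p d) (Sᴴ * M * S)
    rw [hsub, det_bord, det_mul, det_mul, det_conjTranspose, det_conjTranspose, hdS,
      Fintype.card_fin] at h1
    exact h1.symm
  have hR : (k.transpose * A * k.map (starRingEnd ℂ)).det = (kᴴ * Aᵀ * k).det := by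
    rw [← det_transpose]
    congr 1
    rw [transpose_mul, transpose_mul, transpose_transpose, Matrix.mul_assoc]
    rfl
  rw [hR]
  have e1 : star T.det * T.det = ((‖T.det‖ ^ 2 : ℝ) : ℂ) := by
    rw [RCLike.star_def, Complex.conj_mul']
    push_cast
    rfl
  have e2 : star (b * l).det * (b * l).det = ((‖(b * l).det‖ ^ 2 : ℝ) : ℂ) := by
    rw [RCLike.star_def, Complex.conj_mul']
    push_cast
    rfl
  have e3 : ((-1 : ℂ) ^ p) * ((-1 : ℂ) ^ p) = 1 := by
    rw [← mul_pow]
    simp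
  have h2 : ((-1) ^ p * M.det) * ((‖T.det‖ ^ 2 : ℝ) : ℂ) =
      ((‖(b * l).det‖ ^ 2 : ℝ) : ℂ) * (kᴴ * Aᵀ * k).det := by
    rw [← e1, ← e2]
    linear_combination (-1 : ℂ) ^ p * hdet +
      (b * l).det * (kᴴ * Aᵀ * k).det * star (b * l).det * e3
  have h3 := congrArg Complex.re h2
  rwa [Complex.re_mul_ofReal, Complex.re_ofReal_mul] at h3

end Vale.Agent.P281.H185
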