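import Vale.Agent.P281.H342.NU.Iface
import Vale.Agent.P281.H185.FrM

/-! `bdet` in a frame adapted to the kernel of `b`. -/

namespace Vale.Agent.P281.H185

theorem bdet_frame {p d : ℕ} (b : Matrix (Fin p) (Fin (p + d)) ℂ)
    (A : Matrix (Fin (p + d)) (Fin (p + d)) ℂ) (l : Matrix (Fin (p + d)) (Fin p) ℂ)
    (k : Matrix (Fin (p + d)) (Fin d) ℂ) (hk : b * k = 0) :
    H342.NU.bdet b A *
        ‖((Matrix.fromCols l k).submatrix id finSumFinEquiv.symm).det‖ ^ 2 =
      ‖(b * l).det‖ ^ 2 * (k.transpose * A * k.map (starRingEnd ℂ)).det.re := by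
  unfold H342.NU.bdet
  exact bord_frame b A l k hk

end Vale.Agent.P281.H185
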